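import Vale.Agent.P040.Main

namespace Vale.Agent.P040

/-- among three distinct reals different from `t`, two lie strictly on the same side of `t`,
one of them strictly between `t` and the other -/
theorem three_reals (t x y z : ℝ) (hx : x ≠ t) (hy : y ≠ t) (hz : z ≠ t)
    (hxy : x ≠ y) (hxz : x ≠ z) (hyz : y ≠ z) :
    ∃ a b : ℝ, (a = x ∨ a = y ∨ a = z) ∧ (b = x ∨ b = y ∨ b = z) ∧
      ((t < a ∧ a < b) ∨ (b < a ∧ a < t)) := by
  rcases lt_or_gt_of_ne hx with h1 | h1 <;> rcases lt_or_gt_of_ne hy with h2 | h2 <;>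
    rcases lt_or_gt_of_ne hz with h3 | h3
  · rcases lt_or_gt_of_ne hxy with h | h
    · exact ⟨y, x, by simp, by simp, Or.inr ⟨h, h2⟩⟩
    · exact ⟨x, y, by simp, by simp, Or.inr ⟨h, h1⟩⟩
  · rcases lt_or_gt_of_ne hxy with h | h
    · exact ⟨y, x, by simp, by simp, Or.inr ⟨h, h2⟩⟩
    · exact ⟨x, y, by simp, by simp, Or.inr ⟨h, h1⟩⟩
  · rcases lt_or_gt_of_ne hxz with h | h
    · exact ⟨z, x, by simp, by simp, Or.inr ⟨h, h3⟩⟩
    · exact ⟨x, z, by simp, by simp, Or.inr ⟨h, h1⟩⟩
  · rcases lt_or_gt_of_ne hyz with h | h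
    · exact ⟨y, z, by simp, by simp, Or.inl ⟨h2, h⟩⟩
    · exact ⟨z, y, by simp, by simp, Or.inl ⟨h3, h⟩⟩
  · rcases lt_or_gt_of_ne hyz with h | h
    · exact ⟨z, y, by simp, by simp, Or.inr ⟨h, h3⟩⟩
    · exact ⟨y, z, by simp, by simp, Or.inr ⟨h, h2⟩⟩
  · rcases lt_or_gt_of_ne hxz with h | h
    · exact ⟨x, z, by simp, by simp, Or.inl ⟨h1, h⟩⟩
    · exact ⟨z, x, by simp, by simp, Or.inl ⟨h3, h⟩⟩
  · rcases lt_or_gt_of_ne hxy with h | h
    · exact ⟨x, y, by simp, by simp, Or.inl ⟨h1, h⟩⟩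
    · exact ⟨y, x, by simp, by simp, Or.inl ⟨h2, h⟩⟩
  · rcases lt_or_gt_of_ne hxy with h | h
    · exact ⟨x, y, by simp, by simp, Or.inl ⟨h1, h⟩⟩
    · exact ⟨y, x, by simp, by simp, Or.inl ⟨h2, h⟩⟩

/-- a point of a line strictly between two others lies in the open segment -/
theorem mem_openSegment_line (p0 v : ℝ × ℝ) (t a b : ℝ)
    (h : (t < a ∧ a < b) ∨ (b < a ∧ a < t)) :
    a • v + p0 ∈ openSegment ℝ (b • v + p0) (t • v + p0) := by
  have hbt : b - t ≠ 0 := by
    rcases h with ⟨h1, h2⟩ | ⟨h1, h2⟩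
    · intro h0; linarith
    · intro h0; linarith
  refine ⟨(a - t) / (b - t), (b - a) / (b - t), ?_, ?_, ?_, ?_⟩
  · rcases h with ⟨h1, h2⟩ | ⟨h1, h2⟩
    · exact div_pos (by linarith) (by linarith)
    · exact div_pos_of_neg_of_neg (by linarith) (by linarith)
  · rcases h with ⟨h1, h2⟩ | ⟨h1, h2⟩
    · exact div_pos (by linarith) (by linarith)
    · exact div_pos_of_neg_of_neg (by linarith) (by linarith)
  · field_simp; ring
  · ext
    · simp only [Prod.fst_add, Prod.smul_fst, smul_eq_mul]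
      field_simp
      ring
    · simp only [Prod.snd_add, Prod.smul_snd, smul_eq_mul]
      field_simp
      ring

theorem collinear_class {m n : ℕ} (A : Fin m → ℝ × ℝ) (B : Fin n → ℝ × ℝ)
    (hD : IsStraightDrawing A B) (hcol : Collinear ℝ (Set.range A)) :
    dZ m * dZ n ≤ (crossingPoints A B).ncard := by
  classical
  by_cases hm : m ≤ 2
  · have : dZ m = 0 := by
      unfold dZ
      interval_cases m <;> simp
    rw [this]; simp
  rw [not_le] at hm
  obtain ⟨p0, v, hv⟩ := (collinear_iff_exists_forall_eq_smul_vadd (Set.range A)).mp hcol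
  have hr : ∀ i, ∃ r : ℝ, A i = r • v + p0 := by
    intro i
    obtain ⟨r, hr⟩ := hv (A i) ⟨i, rfl⟩
    exact ⟨r, by simpa using hr⟩
  choose r hr using hr
  have hrinj : Function.Injective r := by
    intro i i' h
    apply hD.injA
    rw [hr i, hr i', h]
  set w : Fin n → ℝ := fun j => v.1 * ((B j).2 - p0.2) - v.2 * ((B j).1 - p0.1) with hw
  have hor : ∀ i i' j, orient (A i) (A i') (B j) = (r i' - r i) * w j := by
    intro i i' j
    simp only [orient, hr i, hr i', hw, Prod.fst_add, Prod.smul_fst, smul_eq_mul, Prod.snd_add,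
      Prod.smul_snd]
    ring
  have hv0 : v ≠ 0 := by
    intro h0
    have h01 : (⟨0, by omega⟩ : Fin m) ≠ ⟨1, by omega⟩ := by simp
    apply h01
    apply hD.injA
    rw [hr, hr, h0]; simp
  have hw0 : ∀ j, w j ≠ 0 := by
    intro j h0
    -- `B j` lies on the line
    have hex : ∃ t : ℝ, B j = t • v + p0 := by
      by_cases hv1 : v.1 = 0
      · have hv2 : v.2 ≠ 0 := by
          intro h2; apply hv0; ext <;> simp [hv1, h2]
        refine ⟨((B j).2 - p0.2) / v.2, ?_⟩
        simp only [hw, hv1, zero_mul, zero_sub, neg_eq_zero, mul_eq_zero, hv2, false_or] at h0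
        ext
        · simp only [Prod.fst_add, Prod.smul_fst, smul_eq_mul, hv1]; linarith
        · simp only [Prod.snd_add, Prod.smul_snd, smul_eq_mul]; field_simp; ring
      · refine ⟨((B j).1 - p0.1) / v.1, ?_⟩
        simp only [hw] at h0
        ext
        · simp only [Prod.fst_add, Prod.smul_fst, smul_eq_mul]; field_simp; ring
        · simp only [Prod.snd_add, Prod.smul_snd, smul_eq_mul]; field_simp; linarith
    obtain ⟨t, ht⟩ := hex
    have hne : ∀ i, r i ≠ t := by
      intro i h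
      apply hD.neAB i j
      rw [hr i, ht, h]
    let i0 : Fin m := ⟨0, by omega⟩
    let i1 : Fin m := ⟨1, by omega⟩
    let i2 : Fin m := ⟨2, by omega⟩
    have h01 : r i0 ≠ r i1 := fun h => by simpa [i0, i1] using hrinj h
    have h02 : r i0 ≠ r i2 := fun h => by simpa [i0, i2] using hrinj h
    have h12 : r i1 ≠ r i2 := fun h => by simpa [i1, i2] using hrinj h
    obtain ⟨a, b, ha, hb, hab⟩ := three_reals t (r i0) (r i1) (r i2) (hne _) (hne _) (hne _)
      h01 h02 h12
    have ha' : ∃ i, a = r i := by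
      rcases ha with h | h | h
      · exact ⟨i0, h⟩
      · exact ⟨i1, h⟩
      · exact ⟨i2, h⟩
    have hb' : ∃ i, b = r i := by
      rcases hb with h | h | h
      · exact ⟨i0, h⟩
      · exact ⟨i1, h⟩
      · exact ⟨i2, h⟩
    obtain ⟨ia, rfl⟩ := ha'
    obtain ⟨ib, rfl⟩ := hb'
    have := mem_openSegment_line p0 v t (r ia) (r ib) hab
    rw [← hr ia, ← hr ib, ← ht] at this
    exact hD.avoidA (ib, j) ia this
  apply two_cells A B hD (fun j => decide (0 < w j))
  intro i i' hii j j' hjj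
  rw [hor, hor]
  have h1 : r i' - r i ≠ 0 := fun h => hii (hrinj (by linarith))
  have h2 : 0 < w j * w j' := by
    rw [decide_eq_decide] at hjj
    rcases lt_or_gt_of_ne (hw0 j) with h | h
    · have h' : ¬ 0 < w j' := fun h' => absurd (hjj.mpr h') (not_lt.mpr h.le)
      exact mul_pos_of_neg_of_neg h (lt_of_le_of_ne (not_lt.mp h') (hw0 j'))
    · exact mul_pos h (hjj.mp h)
  have h3 : 0 < (r i' - r i) ^ 2 := by positivity
  nlinarith [mul_pos h3 h2]

end Vale.Agent.P040
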