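import Vale.Agent.P040.Defs

namespace Vale.Agent.P040

theorem dZ_arith (k l r : ℕ) (h : l + r = k) :
    2 * dZ k ≤ (l * l - l) + (r * r - r) := by
  have hl : l ≤ l * l := Nat.le_mul_self l
  have hr : r ≤ r * r := Nat.le_mul_self r
  unfold dZ
  rcases Nat.even_or_odd' k with ⟨s, hs | hs⟩
  · have e1 : k / 2 = s := by omega
    have e2 : (k - 1) / 2 = s - 1 := by omega
    rw [e1, e2]
    zify [hl, hr]
    rcases Nat.eq_zero_or_pos s with h0 | hpos
    · subst h0
      simp
      have : (l:ℤ) ≤ l * l := by exact_mod_cast hl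
      have : (r:ℤ) ≤ r * r := by exact_mod_cast hr
      linarith
    · have : ((s - 1 : ℕ) : ℤ) = (s : ℤ) - 1 := by
        push_cast [Nat.cast_sub hpos]; ring
      rw [this]
      have hk : (l : ℤ) + r = 2 * s := by exact_mod_cast (h.trans hs)
      nlinarith [sq_nonneg ((l : ℤ) - r)]
  · have e1 : k / 2 = s := by omega
    have e2 : (k - 1) / 2 = s := by omega
    rw [e1, e2]
    zify [hl, hr]
    have hk : (l : ℤ) + r = 2 * s + 1 := by exact_mod_cast (h.trans hs)
    have hne : (l : ℤ) - r ≠ 0 := by omega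
    have h1 : 1 ≤ ((l : ℤ) - r) ^ 2 := by
      have := sq_pos_of_ne_zero hne
      linarith
    nlinarith [h1]

theorem mono_pairs (k : ℕ) (σ : Fin k → Bool) :
    dZ k ≤ (Finset.univ.filter (fun p : Fin k × Fin k => p.1 < p.2 ∧ σ p.1 = σ p.2)).card := by
  classical
  set T := Finset.univ.filter (fun i : Fin k => σ i = true) with hT
  set F := Finset.univ.filter (fun i : Fin k => σ i = false) with hF
  set S := Finset.univ.filter (fun p : Fin k × Fin k => p.1 < p.2 ∧ σ p.1 = σ p.2) with hS
  set S' := Finset.univ.filter (fun p : Fin k × Fin k => p.2 < p.1 ∧ σ p.1 = σ p.2) with hS'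
  have hSS' : S'.card = S.card := by
    apply Finset.card_bij (fun p _ => Prod.swap p)
    · intro p hp
      simp only [hS, hS', Finset.mem_filter, Finset.mem_univ, true_and, Prod.fst_swap,
        Prod.snd_swap] at hp ⊢
      exact ⟨hp.1, hp.2.symm⟩
    · intro p _ q _ h
      exact Prod.swap_injective h
    · intro p hp
      refine ⟨p.swap, ?_, by simp⟩
      simp only [hS, hS', Finset.mem_filter, Finset.mem_univ, true_and, Prod.fst_swap,
        Prod.snd_swap] at hp ⊢
      exact ⟨hp.1, hp.2.symm⟩
  have hU : S ∪ S' = T.offDiag ∪ F.offDiag := by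
    ext ⟨i, j⟩
    simp only [hS, hS', hT, hF, Finset.mem_union, Finset.mem_filter, Finset.mem_univ, true_and,
      Finset.mem_offDiag]
    constructor
    · rintro (⟨h1, h2⟩ | ⟨h1, h2⟩)
      · cases hi : σ i
        · right; exact ⟨rfl, by rw [← h2, hi], h1.ne⟩
        · left; exact ⟨rfl, by rw [← h2, hi], h1.ne⟩
      · cases hi : σ i
        · right; exact ⟨rfl, by rw [← h2, hi], h1.ne'⟩
        · left; exact ⟨rfl, by rw [← h2, hi], h1.ne'⟩
    · rintro (⟨h1, h2, h3⟩ | ⟨h1, h2, h3⟩)
      · rcases lt_or_gt_of_ne h3 with h | h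
        · left; exact ⟨h, by rw [h1, h2]⟩
        · right; exact ⟨h, by rw [h1, h2]⟩
      · rcases lt_or_gt_of_ne h3 with h | h
        · left; exact ⟨h, by rw [h1, h2]⟩
        · right; exact ⟨h, by rw [h1, h2]⟩
  have hd1 : Disjoint S S' := by
    rw [Finset.disjoint_left]
    intro p hp hp'
    simp only [hS, hS', Finset.mem_filter, Finset.mem_univ, true_and] at hp hp'
    exact absurd hp.1 (not_lt.mpr hp'.1.le)
  have hd2 : Disjoint T.offDiag F.offDiag := by
    rw [Finset.disjoint_left]
    intro p hp hp'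
    simp only [hT, hF, Finset.mem_offDiag, Finset.mem_filter, Finset.mem_univ, true_and] at hp hp'
    rw [hp.1] at hp'
    exact absurd hp'.1 (by simp)
  have hTF : T.card + F.card = k := by
    have := Finset.card_filter_add_card_filter_not (s := (Finset.univ : Finset (Fin k)))
      (fun i => σ i = true)
    simp only [Bool.not_eq_true, Finset.card_univ, Fintype.card_fin] at this
    exact this
  have hc : S.card + S'.card = T.offDiag.card + F.offDiag.card := by
    rw [← Finset.card_union_of_disjoint hd1, ← Finset.card_union_of_disjoint hd2, hU]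
  rw [Finset.offDiag_card, Finset.offDiag_card, hSS'] at hc
  have := dZ_arith k T.card F.card hTF
  omega

end Vale.Agent.P040
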