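import Mathlib

namespace Vale.Agent.P040

/-- `dZ r = ⌊r/2⌋ * ⌊(r-1)/2⌋`, the factor `d_r` of the Zarankiewicz number. -/
def dZ (r : ℕ) : ℕ := (r / 2) * ((r - 1) / 2)

/-- Orientation determinant of three points of the plane: positive, zero or negative according
as `r` lies strictly to the left of, on, or strictly to the right of the directed line `p q`. -/
def orient (p q r : ℝ × ℝ) : ℝ :=
  (q.1 - p.1) * (r.2 - p.2) - (q.2 - p.2) * (r.1 - p.1)

/-- The interior of the straight edge joining the vertex `A e.1` to the vertex `B e.2`. -/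
def edge {m n : ℕ} (A : Fin m → ℝ × ℝ) (B : Fin n → ℝ × ℝ) (e : Fin m × Fin n) : Set (ℝ × ℝ) :=
  openSegment ℝ (A e.1) (B e.2)

/-- The set of crossing points: points lying on the interiors of two different edges. -/
def crossingPoints {m n : ℕ} (A : Fin m → ℝ × ℝ) (B : Fin n → ℝ × ℝ) : Set (ℝ × ℝ) :=
  {p | ∃ e f : Fin m × Fin n, e ≠ f ∧ p ∈ edge A B e ∧ p ∈ edge A B f}

/-- `A`, `B` are the vertex positions of a straight-line drawing of `K_{m,n}` in the plane:
vertices are distinct, edge interiors avoid all vertices, edge interiors meet in finitely many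
points, and every such point lies on exactly two edges. -/
structure IsStraightDrawing {m n : ℕ} (A : Fin m → ℝ × ℝ) (B : Fin n → ℝ × ℝ) : Prop where
  injA : Function.Injective A
  injB : Function.Injective B
  neAB : ∀ i j, A i ≠ B j
  avoidA : ∀ e i, A i ∉ edge A B e
  avoidB : ∀ e j, B j ∉ edge A B e
  finite : (crossingPoints A B).Finite
  two : ∀ p e f g, p ∈ edge A B e → p ∈ edge A B f → p ∈ edge A B g → e = f ∨ e = g ∨ f = g

end Vale.Agent.P040
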