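import Vale.Agent.P040.Defs

namespace Vale.Agent.P040

theorem seg_cross (p q r s : ℝ × ℝ)
    (h1 : orient r s p * orient r s q < 0) (h2 : orient p q r * orient p q s < 0) :
    ∃ x, x ∈ openSegment ℝ p q ∧ x ∈ openSegment ℝ r s := by
  set u := orient r s p with hu
  set v := orient r s q with hv
  set u' := orient p q r with hu'
  set v' := orient p q s with hv'
  have hsum : u - v = -(u' - v') := by
    simp only [hu, hv, hu', hv', orient]; ring
  have huv : u - v ≠ 0 := by
    intro h
    have : u = v := by linarith
    rw [this] at h1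
    nlinarith [mul_self_nonneg v]
  have huv' : u' - v' ≠ 0 := by
    intro h
    apply huv; rw [hsum, h]; simp
  have ha : 0 < -v / (u - v) := by
    rcases lt_or_gt_of_ne huv with h | h
    · apply div_pos_of_neg_of_neg _ h
      by_contra hc
      rw [not_lt] at hc
      have hv0 : v ≤ 0 := by linarith
      have hu0 : u < 0 := by linarith
      nlinarith [mul_nonneg_of_nonpos_of_nonpos hu0.le hv0]
    · apply div_pos _ h
      by_contra hc
      rw [not_lt] at hc
      have hv0 : 0 ≤ v := by linarith
      have hu0 : 0 < u := by linarith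
      nlinarith [mul_nonneg hu0.le hv0]
  have hb : 0 < u / (u - v) := by
    rcases lt_or_gt_of_ne huv with h | h
    · apply div_pos_of_neg_of_neg _ h
      by_contra hc
      rw [not_lt] at hc
      have hv0 : 0 < v := by linarith
      nlinarith [mul_nonneg hc hv0.le]
    · apply div_pos _ h
      by_contra hc
      rw [not_lt] at hc
      have hv0 : v < 0 := by linarith
      nlinarith [mul_nonneg_of_nonpos_of_nonpos hc hv0.le]
  have ha' : 0 < -v' / (u' - v') := by
    rcases lt_or_gt_of_ne huv' with h | h
    · apply div_pos_of_neg_of_neg _ h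
      by_contra hc
      rw [not_lt] at hc
      have hv0 : v' ≤ 0 := by linarith
      have hu0 : u' < 0 := by linarith
      nlinarith [mul_nonneg_of_nonpos_of_nonpos hu0.le hv0]
    · apply div_pos _ h
      by_contra hc
      rw [not_lt] at hc
      have hv0 : 0 ≤ v' := by linarith
      have hu0 : 0 < u' := by linarith
      nlinarith [mul_nonneg hu0.le hv0]
  have hb' : 0 < u' / (u' - v') := by
    rcases lt_or_gt_of_ne huv' with h | h
    · apply div_pos_of_neg_of_neg _ h
      by_contra hc
      rw [not_lt] at hc
      have hv0 : 0 < v' := by linarith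
      nlinarith [mul_nonneg hc hv0.le]
    · apply div_pos _ h
      by_contra hc
      rw [not_lt] at hc
      have hv0 : v' < 0 := by linarith
      nlinarith [mul_nonneg_of_nonpos_of_nonpos hc hv0.le]
  refine ⟨(-v / (u - v)) • p + (u / (u - v)) • q, ⟨_, _, ha, hb, ?_, rfl⟩,
    ⟨-v' / (u' - v'), u' / (u' - v'), ha', hb', ?_, ?_⟩⟩
  · field_simp; ring
  · field_simp; ring
  · have e1 : u * q.1 - v * p.1 + u' * s.1 - v' * r.1 = 0 := by
      simp only [hu, hv, hu', hv', orient]; ring
    have e2 : u * q.2 - v * p.2 + u' * s.2 - v' * r.2 = 0 := by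
      simp only [hu, hv, hu', hv', orient]; ring
    have hd : u' - v' = -(u - v) := by linarith
    ext
    · simp only [Prod.fst_add, Prod.smul_fst, smul_eq_mul]
      rw [hd]
      field_simp
      linarith
    · simp only [Prod.snd_add, Prod.smul_snd, smul_eq_mul]
      rw [hd]
      field_simp
      linarith


/-- Four points: if the line `a a'` does not separate `b, b'` and the line `b b'` does not
separate `a, a'`, then one of the two pairs of opposite edges of the `K_{2,2}` crosses. -/
theorem four_point (a a' b b' : ℝ × ℝ)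
    (hD : 0 < orient a a' b * orient a a' b') (hE : 0 < orient b b' a * orient b b' a') :
    (∃ x, x ∈ openSegment ℝ a b ∧ x ∈ openSegment ℝ a' b') ∨
    (∃ x, x ∈ openSegment ℝ a b' ∧ x ∈ openSegment ℝ a' b) := by
  have i1 : orient a' b' a = orient a a' b' := by simp only [orient]; ring
  have i2 : orient a' b' b = - orient b b' a' := by simp only [orient]; ring
  have i3 : orient a b a' = - orient a a' b := by simp only [orient]; ring
  have i4 : orient a b b' = orient b b' a := by simp only [orient]; ring
  have i5 : orient a' b a = orient a a' b := by simp only [orient]; ring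
  have i6 : orient a' b b' = orient b b' a' := by simp only [orient]; ring
  have i7 : orient a b' a' = - orient a a' b' := by simp only [orient]; ring
  have i8 : orient a b' b = - orient b b' a := by simp only [orient]; ring
  rcases mul_pos_iff.mp hD with ⟨d1, d2⟩ | ⟨d1, d2⟩ <;>
  rcases mul_pos_iff.mp hE with ⟨e1, e2⟩ | ⟨e1, e2⟩
  · left
    apply seg_cross
    · rw [i1, i2]; nlinarith [mul_pos d2 e2]
    · rw [i3, i4]; nlinarith [mul_pos d1 e1]
  · right
    apply seg_cross
    · rw [i5, i6]; exact mul_neg_of_pos_of_neg d1 e2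
    · rw [i7, i8]; nlinarith [mul_pos d2 (neg_pos.mpr e1)]
  · right
    apply seg_cross
    · rw [i5, i6]; exact mul_neg_of_neg_of_pos d1 e2
    · rw [i7, i8]; nlinarith [mul_pos (neg_pos.mpr d2) e1]
  · left
    apply seg_cross
    · rw [i1, i2]; nlinarith [mul_pos (neg_pos.mpr d2) (neg_pos.mpr e2)]
    · rw [i3, i4]; nlinarith [mul_pos (neg_pos.mpr d1) (neg_pos.mpr e1)]

/-- If `b, b'` are distinct and strictly on the same side of a line through `a`, and neither of
`b, b'` lies inside the segment from `a` to the other one, then `a` is not on the line `b b'`. -/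
theorem orient_ne_zero (a a' b b' : ℝ × ℝ) (hbb : b ≠ b')
    (hD : 0 < orient a a' b * orient a a' b')
    (h1 : b ∉ openSegment ℝ a b') (h2 : b' ∉ openSegment ℝ a b) :
    orient b b' a ≠ 0 := by
  intro h0
  set D1 := orient a a' b with hD1
  set D2 := orient a a' b' with hD2
  have k1 : D2 * (b.1 - a.1) = D1 * (b'.1 - a.1) := by
    have : D2 * (b.1 - a.1) - D1 * (b'.1 - a.1) = orient b b' a * (a'.1 - a.1) := by
      simp only [hD1, hD2, orient]; ring
    rw [h0] at this; linarith
  have k2 : D2 * (b.2 - a.2) = D1 * (b'.2 - a.2) := by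
    have : D2 * (b.2 - a.2) - D1 * (b'.2 - a.2) = orient b b' a * (a'.2 - a.2) := by
      simp only [hD1, hD2, orient]; ring
    rw [h0] at this; linarith
  have hD2ne : D2 ≠ 0 := by
    intro h; rw [h] at hD; simp at hD
  have hD1ne : D1 ≠ 0 := by
    intro h; rw [h] at hD; simp at hD
  have hl : 0 < D1 / D2 := by
    rcases mul_pos_iff.mp hD with ⟨d1, d2⟩ | ⟨d1, d2⟩
    · exact div_pos d1 d2
    · exact div_pos_of_neg_of_neg d1 d2
  have hl' : 0 < D2 / D1 := by
    rcases mul_pos_iff.mp hD with ⟨d1, d2⟩ | ⟨d1, d2⟩
    · exact div_pos d2 d1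
    · exact div_pos_of_neg_of_neg d2 d1
  rcases lt_trichotomy (D1 / D2) 1 with hlt | heq | hgt
  · apply h1
    refine ⟨1 - D1 / D2, D1 / D2, by linarith, hl, by ring, ?_⟩
    ext
    · simp only [Prod.fst_add, Prod.smul_fst, smul_eq_mul]
      field_simp
      linarith
    · simp only [Prod.snd_add, Prod.smul_snd, smul_eq_mul]
      field_simp
      linarith
  · apply hbb
    have : D1 = D2 := by
      field_simp at heq; exact heq
    rw [this] at k1 k2
    have e1 := mul_left_cancel₀ hD2ne k1
    have e2 := mul_left_cancel₀ hD2ne k2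
    ext <;> linarith
  · apply h2
    have hlt' : D2 / D1 < 1 := by
      have : D2 / D1 = (D1 / D2)⁻¹ := by rw [inv_div]
      rw [this]
      exact inv_lt_one_of_one_lt₀ hgt
    refine ⟨1 - D2 / D1, D2 / D1, by linarith, hl', by ring, ?_⟩
    ext
    · simp only [Prod.fst_add, Prod.smul_fst, smul_eq_mul]
      field_simp
      linarith
    · simp only [Prod.snd_add, Prod.smul_snd, smul_eq_mul]
      field_simp
      linarith

end Vale.Agent.P040
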