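import Vale.Agent.P040.Geom
import Vale.Agent.P040.Count

namespace Vale.Agent.P040

/-- the relation: the point `x` is a crossing of the two stars restricted to the quadruple -/
def crossRel {m n : ℕ} (A : Fin m → ℝ × ℝ) (B : Fin n → ℝ × ℝ)
    (t : (_ : Fin n × Fin n) × (Fin m × Fin m)) (x : ℝ × ℝ) : Prop :=
  ∃ u v : Fin n, ((u = t.1.1 ∧ v = t.1.2) ∨ (u = t.1.2 ∧ v = t.1.1)) ∧
    x ∈ edge A B (t.2.1, u) ∧ x ∈ edge A B (t.2.2, v)

theorem two_cells {m n : ℕ} (A : Fin m → ℝ × ℝ) (B : Fin n → ℝ × ℝ)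
    (hD : IsStraightDrawing A B) (s : Fin n → Bool)
    (hs : ∀ i i', i ≠ i' → ∀ j j', s j = s j' →
      0 < orient (A i) (A i') (B j) * orient (A i) (A i') (B j')) :
    dZ m * dZ n ≤ (crossingPoints A B).ncard := by
  classical
  set P : Finset (Fin n × Fin n) :=
    Finset.univ.filter (fun q : Fin n × Fin n => q.1 < q.2 ∧ s q.1 = s q.2) with hP
  set sg : (Fin n × Fin n) → Fin m → Bool :=
    fun q i => decide (0 < orient (B q.1) (B q.2) (A i)) with hsg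
  set R : (Fin n × Fin n) → Finset (Fin m × Fin m) :=
    fun q => Finset.univ.filter (fun p : Fin m × Fin m => p.1 < p.2 ∧ sg q p.1 = sg q p.2) with hR
  set T : Finset ((_ : Fin n × Fin n) × (Fin m × Fin m)) := P.sigma R with hT
  have hcardT : dZ m * dZ n ≤ T.card := by
    have h1 : T.card = ∑ q ∈ P, (R q).card := Finset.card_sigma P R
    rw [h1]
    calc dZ m * dZ n ≤ dZ m * P.card := Nat.mul_le_mul_left _ (mono_pairs n s)
      _ = ∑ _q ∈ P, dZ m := by simp [mul_comm]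
      _ ≤ ∑ q ∈ P, (R q).card := Finset.sum_le_sum (fun q _ => mono_pairs m (sg q))
  have hex : ∀ t ∈ T, ∃ x, x ∈ hD.finite.toFinset ∧ crossRel A B t x := by
    rintro ⟨⟨j, j'⟩, ⟨i, i'⟩⟩ ht
    simp only [hT, hP, hR, hsg, Finset.mem_sigma, Finset.mem_filter, Finset.mem_univ,
      true_and] at ht
    obtain ⟨⟨hj, hsj⟩, hi, hsi⟩ := ht
    have hbb : B j ≠ B j' := fun h => hj.ne (hD.injB h)
    have hD1 := hs i i' hi.ne j j' hsj
    have hD2 := hs i' i hi.ne' j j' hsj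
    have hE1 : orient (B j) (B j') (A i) ≠ 0 :=
      orient_ne_zero (A i) (A i') (B j) (B j') hbb hD1 (hD.avoidB (i, j') j) (hD.avoidB (i, j) j')
    have hE2 : orient (B j) (B j') (A i') ≠ 0 :=
      orient_ne_zero (A i') (A i) (B j) (B j') hbb hD2 (hD.avoidB (i', j') j)
        (hD.avoidB (i', j) j')
    have hE : 0 < orient (B j) (B j') (A i) * orient (B j) (B j') (A i') := by
      rw [decide_eq_decide] at hsi
      rcases lt_or_gt_of_ne hE1 with h1 | h1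
      · have h2 : ¬ 0 < orient (B j) (B j') (A i') := fun h => absurd (hsi.mpr h) (not_lt.mpr h1.le)
        have h2' : orient (B j) (B j') (A i') < 0 := lt_of_le_of_ne (not_lt.mp h2) hE2
        exact mul_pos_of_neg_of_neg h1 h2'
      · exact mul_pos h1 (hsi.mp h1)
    rcases four_point (A i) (A i') (B j) (B j') hD1 hE with ⟨x, hx1, hx2⟩ | ⟨x, hx1, hx2⟩
    · refine ⟨x, ?_, j, j', Or.inl ⟨rfl, rfl⟩, hx1, hx2⟩
      rw [Set.Finite.mem_toFinset]
      exact ⟨(i, j), (i', j'), by simp [hi.ne], hx1, hx2⟩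
    · refine ⟨x, ?_, j', j, Or.inr ⟨rfl, rfl⟩, hx1, hx2⟩
      rw [Set.Finite.mem_toFinset]
      exact ⟨(i, j'), (i', j), by simp [hi.ne], hx1, hx2⟩
  have huniq : ∀ x ∈ hD.finite.toFinset, ({t ∈ T | crossRel A B t x} : Set _).Subsingleton := by
    intro x _
    rintro ⟨⟨j1, j1'⟩, ⟨i1, i1'⟩⟩ ⟨ht1, u1, v1, huv1, hx1, hx1'⟩
      ⟨⟨j2, j2'⟩, ⟨i2, i2'⟩⟩ ⟨ht2, u2, v2, huv2, hx2, hx2'⟩
    simp only [hT, hP, hR, Finset.mem_sigma, Finset.mem_univ, true_and, Finset.mem_filter]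
      at ht1 ht2
    obtain ⟨⟨hj1, -⟩, hi1, -⟩ := ht1
    obtain ⟨⟨hj2, -⟩, hi2, -⟩ := ht2
    simp only at huv1 huv2 hx1 hx1' hx2 hx2'
    have c1 := hD.two x _ _ _ hx1 hx1' hx2
    have c2 := hD.two x _ _ _ hx1 hx1' hx2'
    have c3 := hD.two x _ _ _ hx2 hx2' hx1
    simp only [Prod.mk.injEq] at c1 c2 c3
    have hi1ne := hi1.ne
    have hi2ne := hi2.ne
    have key : i1 = i2 ∧ i1' = i2' ∧ u1 = u2 ∧ v1 = v2 := by
      rcases c1 with ⟨h, _⟩ | ⟨h, hu⟩ | ⟨h, hu⟩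
      · exact absurd h hi1ne
      · rcases c2 with ⟨h', _⟩ | ⟨h', hu'⟩ | ⟨h', hu'⟩
        · exact absurd h' hi1ne
        · exact absurd (h.symm.trans h') hi2ne
        · exact ⟨h, h', hu, hu'⟩
      · rcases c2 with ⟨h', _⟩ | ⟨h', hu'⟩ | ⟨h', hu'⟩
        · exact absurd h' hi1ne
        · exfalso
          rw [← h, ← h'] at hi2
          exact absurd hi1 (not_lt.mpr hi2.le)
        · exact absurd (h.symm.trans h') hi2ne
    obtain ⟨k1, k2, k3, k4⟩ := key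
    subst k1 k2 k3 k4
    have : j1 = j2 ∧ j1' = j2' := by
      rcases huv1 with ⟨a1, a2⟩ | ⟨a1, a2⟩ <;> rcases huv2 with ⟨b1, b2⟩ | ⟨b1, b2⟩
      · exact ⟨a1.symm.trans b1, a2.symm.trans b2⟩
      · exfalso
        rw [← a1, ← a2] at hj1
        rw [← b1, ← b2] at hj2
        exact absurd hj1 (not_lt.mpr hj2.le)
      · exfalso
        rw [← a1, ← a2] at hj1
        rw [← b1, ← b2] at hj2
        exact absurd hj1 (not_lt.mpr hj2.le)
      · exact ⟨a2.symm.trans b2, a1.symm.trans b1⟩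
    obtain ⟨l1, l2⟩ := this
    subst l1 l2
    rfl
  have := Finset.card_le_card_of_forall_subsingleton (crossRel A B) hex huniq
  rw [Set.ncard_eq_toFinset_card _ hD.finite]
  exact hcardT.trans this

end Vale.Agent.P040
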